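import Mathlib

/-!
# P194, helper11: an abstract ring lemma

If `φ : R →+* S` is a ring homomorphism whose kernel is contained in `c * R`, where `c` satisfies
`R * c ⊆ c * R`, and no nonzero element of `R` is divisible on the left by every power of `c`,
then direct finiteness of `S` implies direct finiteness of `R`; likewise for matrix rings.
-/

namespace Vale.Agent.Lib.P194.H11

theorem df_of_kernel {R S : Type*} [Ring R] [Ring S] (φ : R →+* S) (c : R)
    (hc : ∀ r : R, ∃ r' : R, r * c = c * r')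
    (hker : ∀ x : R, φ x = 0 → ∃ y, x = c * y)
    (hint : ∀ x : R, (∀ k : ℕ, ∃ y, x = c ^ k * y) → x = 0)
    (hS : ∀ a b : S, a * b = 1 → b * a = 1) :
    ∀ a b : R, a * b = 1 → b * a = 1 := by
  intro a b hab
  have hφ : φ b * φ a = 1 := hS _ _ (by rw [← map_mul, hab, map_one])
  have hbaba : b * a * (b * a) = b * a := by
    calc b * a * (b * a) = b * (a * b) * a := by simp only [mul_assoc]
      _ = b * a := by rw [hab, mul_one]
  have hee : (1 - b * a) * (1 - b * a) = 1 - b * a := by
    rw [mul_sub, sub_mul, sub_mul, one_mul, mul_one, one_mul, hbaba, sub_self, sub_zero]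
  have hφe : φ (1 - b * a) = 0 := by rw [map_sub, map_one, map_mul, hφ, sub_self]
  obtain ⟨y, hy⟩ := hker _ hφe
  have hpow : ∀ k : ℕ, (1 - b * a) ^ (k + 1) = 1 - b * a := by
    intro k
    induction k with
    | zero => rw [zero_add, pow_one]
    | succ k ih => rw [pow_succ, ih, hee]
  have hck : ∀ k : ℕ, ∃ w, (c * y) ^ k = c ^ k * w := by
    intro k
    induction k with
    | zero => exact ⟨1, by simp⟩
    | succ k ih =>
      obtain ⟨w, hw⟩ := ih
      obtain ⟨r', hr'⟩ := hc w
      refine ⟨r' * y, ?_⟩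
      rw [pow_succ, hw, pow_succ]
      calc c ^ k * w * (c * y) = c ^ k * (w * c) * y := by simp only [mul_assoc]
        _ = c ^ k * c * (r' * y) := by rw [hr']; simp only [mul_assoc]
  have he0 : 1 - b * a = 0 := by
    apply hint
    intro k
    obtain ⟨w, hw⟩ := hck (k + 1)
    refine ⟨c * w, ?_⟩
    rw [← mul_assoc, ← pow_succ, ← hw, ← hy, hpow]
  exact (sub_eq_zero.mp he0).symm

theorem df_matrix_of_kernel {R S : Type*} [Ring R] [Ring S] (φ : R →+* S) (c : R)
    (hc : ∀ r : R, ∃ r' : R, r * c = c * r')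
    (hker : ∀ x : R, φ x = 0 → ∃ y, x = c * y)
    (hint : ∀ x : R, (∀ k : ℕ, ∃ y, x = c ^ k * y) → x = 0)
    (n : ℕ)
    (hS : ∀ A B : Matrix (Fin n) (Fin n) S, A * B = 1 → B * A = 1) :
    ∀ A B : Matrix (Fin n) (Fin n) R, A * B = 1 → B * A = 1 := by
  refine df_of_kernel (φ.mapMatrix) (Matrix.diagonal fun _ => c) ?_ ?_ ?_ hS
  · intro X
    choose f hf using hc
    refine ⟨X.map f, ?_⟩
    ext i j
    rw [Matrix.mul_diagonal, Matrix.diagonal_mul, Matrix.map_apply, hf]
  · intro X hX
    have h0 : ∀ i j, φ (X i j) = 0 := fun i j => by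
      have h1 := congrFun (congrFun hX i) j
      simpa using h1
    choose f hf using hker
    refine ⟨Matrix.of fun i j => f (X i j) (h0 i j), ?_⟩
    ext i j
    rw [Matrix.diagonal_mul, Matrix.of_apply]
    exact hf _ _
  · intro X hX
    ext i j
    apply hint
    intro k
    obtain ⟨Y, hY⟩ := hX k
    refine ⟨Y i j, ?_⟩
    rw [hY, Matrix.diagonal_pow, Matrix.diagonal_mul]
    rfl

end Vale.Agent.Lib.P194.H11
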