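import Mathlib

/-!
# P194, helper11: extensions whose kernel has a residually nilpotent augmentation ideal

Let `f : G → Q` be a group homomorphism with kernel `N`, and let `ω` be the augmentation ideal of
`K[N]` (the `K`-span of the elements `n - 1`). If the powers `ω ^ k`, `k ≥ 1`, have zero
intersection, then direct finiteness passes from `K[Q]` to `K[G]`, and likewise for matrix rings.
-/

namespace Vale.Agent.Lib.P194.H11

/-- Direct finiteness passes along a ring homomorphism `φ : R → S` whose kernel lies in a
`K`-submodule `J` of `R` whose powers `J ^ k`, `k ≥ 1`, have zero intersection. -/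
theorem df_of_submodule {K R S : Type*} [CommRing K] [Ring R] [Algebra K R] [Ring S]
    (φ : R →+* S) (J : Submodule K R)
    (hker : ∀ x : R, φ x = 0 → x ∈ J)
    (hint : ∀ x : R, (∀ k : ℕ, x ∈ J ^ (k + 1)) → x = 0)
    (hS : ∀ a b : S, a * b = 1 → b * a = 1) :
    ∀ a b : R, a * b = 1 → b * a = 1 := by
  intro a b hab
  have hφ : φ b * φ a = 1 := hS _ _ (by rw [← map_mul, hab, map_one])
  have hbaba : b * a * (b * a) = b * a := by
    calc b * a * (b * a) = b * (a * b) * a := by simp only [mul_assoc]
      _ = b * a := by rw [hab, mul_one]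
  have hee : (1 - b * a) * (1 - b * a) = 1 - b * a := by
    rw [mul_sub, sub_mul, sub_mul, one_mul, mul_one, one_mul, hbaba, sub_self, sub_zero]
  have hφe : φ (1 - b * a) = 0 := by rw [map_sub, map_one, map_mul, hφ, sub_self]
  have hmem := hker _ hφe
  have hpow : ∀ k : ℕ, (1 - b * a) ^ (k + 1) = 1 - b * a := by
    intro k
    induction k with
    | zero => rw [zero_add, pow_one]
    | succ k ih => rw [pow_succ, ih, hee]
  have he0 : 1 - b * a = 0 := by
    apply hint
    intro k
    have h1 := Submodule.pow_mem_pow J hmem (k + 1)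
    rwa [hpow] at h1
  exact (sub_eq_zero.mp he0).symm

/-- The matrix version of `df_of_submodule`. -/
theorem df_matrix_of_submodule {K R S : Type*} [CommRing K] [Ring R] [Algebra K R] [Ring S]
    (φ : R →+* S) (J : Submodule K R)
    (hker : ∀ x : R, φ x = 0 → x ∈ J)
    (hint : ∀ x : R, (∀ k : ℕ, x ∈ J ^ (k + 1)) → x = 0)
    (n : ℕ)
    (hS : ∀ A B : Matrix (Fin n) (Fin n) S, A * B = 1 → B * A = 1) :
    ∀ A B : Matrix (Fin n) (Fin n) R, A * B = 1 → B * A = 1 := by
  let E : Submodule K R → Submodule K (Matrix (Fin n) (Fin n) R) := fun M =>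
    { carrier := {X | ∀ i j, X i j ∈ M}
      add_mem' := fun hX hY i j => M.add_mem (hX i j) (hY i j)
      zero_mem' := fun i j => M.zero_mem
      smul_mem' := fun c X hX i j => M.smul_mem c (hX i j) }
  have hE : ∀ M N : Submodule K R, E M * E N ≤ E (M * N) := by
    intro M N
    rw [Submodule.mul_le]
    intro X hX Y hY i j
    rw [Matrix.mul_apply]
    exact Submodule.sum_mem _ (fun l _ => Submodule.mul_mem_mul (hX i l) (hY l j))
  have hpow : ∀ k : ℕ, E J ^ (k + 1) ≤ E (J ^ (k + 1)) := by
    intro k
    induction k with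
    | zero => rw [zero_add, pow_one, pow_one]
    | succ k ih =>
      rw [pow_succ, pow_succ (a := J)]
      exact (mul_le_mul' ih le_rfl).trans (hE _ _)
  refine df_of_submodule (φ.mapMatrix) (E J) ?_ ?_ hS
  · intro X hX i j
    apply hker
    have h1 := congrFun (congrFun hX i) j
    simpa using h1
  · intro X hX
    ext i j
    apply hint
    intro k
    exact hpow k (hX k) i j

/-- The augmentation ideal of `K[N]`, as the `K`-span of the elements `n - 1`. -/
noncomputable def augSpan (K : Type*) [Field K] (N : Type*) [Group N] : Submodule K (MonoidAlgebra K N) :=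
  Submodule.span K (Set.range fun n : N => (MonoidAlgebra.single n (1 : K) - 1 : MonoidAlgebra K N))

theorem single_eq_smul {K N : Type*} [Field K] [Group N] (m : N) (a : K) :
    (MonoidAlgebra.single m a : MonoidAlgebra K N) = a • MonoidAlgebra.single m (1 : K) := by
  rw [MonoidAlgebra.smul_single, smul_eq_mul, mul_one]

/-- The augmentation ideal is a right ideal. -/
theorem augSpan_mul_top (K : Type*) [Field K] (N : Type*) [Group N] :
    augSpan K N * ⊤ ≤ augSpan K N := by
  rw [Submodule.mul_le]
  intro w hw v hv
  clear hv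
  induction hw using Submodule.span_induction with
  | mem w hw =>
    obtain ⟨n, rfl⟩ := hw
    induction v using MonoidAlgebra.induction_linear with
    | zero => rw [mul_zero]; exact Submodule.zero_mem _
    | add v₁ v₂ h₁ h₂ => rw [mul_add]; exact Submodule.add_mem _ h₁ h₂
    | single m a =>
      have h1 : (MonoidAlgebra.single n (1 : K) - 1) * MonoidAlgebra.single m a
          = a • ((MonoidAlgebra.single (n * m) (1 : K) - 1 : MonoidAlgebra K N)
            - (MonoidAlgebra.single m (1 : K) - 1)) := by
        rw [sub_mul, one_mul, MonoidAlgebra.single_mul_single, one_mul, sub_sub_sub_cancel_right,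
          smul_sub, ← single_eq_smul, ← single_eq_smul]
      rw [h1]
      exact Submodule.smul_mem _ _ (Submodule.sub_mem _ (Submodule.subset_span ⟨n * m, rfl⟩)
        (Submodule.subset_span ⟨m, rfl⟩))
  | zero => rw [zero_mul]; exact Submodule.zero_mem _
  | add w₁ w₂ _ _ h₁ h₂ => rw [add_mul]; exact Submodule.add_mem _ h₁ h₂
  | smul c w _ h => rw [smul_mul_assoc]; exact Submodule.smul_mem _ _ h

theorem augSpan_pow_mul_top (K : Type*) [Field K] (N : Type*) [Group N] (k : ℕ) :
    augSpan K N ^ (k + 1) * ⊤ ≤ augSpan K N ^ (k + 1) := by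
  rw [pow_succ, mul_assoc]
  exact mul_le_mul' le_rfl (augSpan_mul_top K N)

section GroupRing

variable {K G Q : Type*} [Field K] [Group G] [Group Q]

/-- The inclusion `K[ker f] → K[G]`. -/
noncomputable def kerIncl (K : Type*) [Field K] {G Q : Type*} [Group G] [Group Q] (f : G →* Q) :
    MonoidAlgebra K f.ker →ₐ[K] MonoidAlgebra K G :=
  MonoidAlgebra.mapDomainAlgHom K K f.ker.subtype

/-- The right ideal of `K[G]` generated by the augmentation ideal of `K[ker f]`. -/
noncomputable def kerIdeal (K : Type*) [Field K] {G Q : Type*} [Group G] [Group Q] (f : G →* Q) :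
    Submodule K (MonoidAlgebra K G) :=
  Submodule.map (kerIncl K f).toLinearMap (augSpan K f.ker) * ⊤

theorem kerIncl_single (f : G →* Q) (n : f.ker) (a : K) :
    kerIncl K f (MonoidAlgebra.single n a) = MonoidAlgebra.single (n : G) a := by
  simp [kerIncl]

theorem kerIncl_coeff (f : G →* Q) (w : MonoidAlgebra K f.ker) (m : f.ker) :
    (kerIncl K f w).coeff (m : G) = w.coeff m := by
  show (Finsupp.mapDomain f.ker.subtype w.coeff) (f.ker.subtype m) = w.coeff m
  exact Finsupp.mapDomain_apply Subtype.val_injective _ _

theorem kerIncl_coeff_notin (f : G →* Q) (w : MonoidAlgebra K f.ker) (x : G) (hx : x ∉ f.ker) :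
    (kerIncl K f w).coeff x = 0 := by
  show (Finsupp.mapDomain f.ker.subtype w.coeff) x = 0
  apply Finsupp.mapDomain_of_notMem_range
  rintro ⟨m, rfl⟩
  exact hx m.2

/-- The kernel of `K[G] → K[Q]` is contained in `kerIdeal K f`. -/
theorem kernel_mem_kerIdeal (f : G →* Q) (x : MonoidAlgebra K G)
    (hx : MonoidAlgebra.mapDomainRingHom K f x = 0) : x ∈ kerIdeal K f := by
  classical
  have key : ∀ x : MonoidAlgebra K G,
      x - MonoidAlgebra.mapDomain (Function.invFun f ∘ f) x ∈ kerIdeal K f := by
    intro x
    induction x using MonoidAlgebra.induction_linear with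
    | zero =>
      rw [MonoidAlgebra.mapDomain_zero, sub_zero]
      exact Submodule.zero_mem _
    | add x₁ x₂ h₁ h₂ =>
      rw [MonoidAlgebra.mapDomain_add, add_sub_add_comm]
      exact Submodule.add_mem _ h₁ h₂
    | single g a =>
      have hf : f (Function.invFun f (f g)) = f g := Function.invFun_eq ⟨g, rfl⟩
      have hmem : g / Function.invFun f (f g) ∈ f.ker := by
        rw [MonoidHom.mem_ker, map_div, hf, div_self']
      have h1 : MonoidAlgebra.single g a
          - MonoidAlgebra.mapDomain (Function.invFun f ∘ f) (MonoidAlgebra.single g a)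
          = kerIncl K f (MonoidAlgebra.single ⟨_, hmem⟩ (1 : K) - 1)
            * MonoidAlgebra.single (Function.invFun f (f g)) a := by
        rw [map_sub, map_one, kerIncl_single, sub_mul, one_mul, MonoidAlgebra.single_mul_single,
          one_mul, MonoidAlgebra.mapDomain_single, div_mul_cancel]
        rfl
      rw [h1]
      exact Submodule.mul_mem_mul
        (Submodule.mem_map_of_mem (Submodule.subset_span ⟨_, rfl⟩)) Submodule.mem_top
  have h1 : Finsupp.mapDomain f x.coeff = 0 := congrArg MonoidAlgebra.coeff hx
  have h3 : MonoidAlgebra.mapDomain (Function.invFun f ∘ f) x = 0 := by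
    apply MonoidAlgebra.coeff_injective
    show Finsupp.mapDomain _ x.coeff = 0
    rw [Finsupp.mapDomain_comp, h1, Finsupp.mapDomain_zero]
  have h4 := key x
  rwa [h3, sub_zero] at h4

/-- Normality of the kernel: `K[G] * ω ⊆ ω * K[G]`. -/
theorem top_mul_map_le (f : G →* Q) :
    (⊤ : Submodule K (MonoidAlgebra K G))
        * Submodule.map (kerIncl K f).toLinearMap (augSpan K f.ker)
      ≤ kerIdeal K f := by
  rw [Submodule.mul_le]
  intro y hy w hw
  clear hy
  rw [augSpan, Submodule.map_span] at hw
  induction hw using Submodule.span_induction with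
  | mem w hw =>
    obtain ⟨w', ⟨n, rfl⟩, rfl⟩ := hw
    induction y using MonoidAlgebra.induction_linear with
    | zero =>
      rw [zero_mul]
      exact Submodule.zero_mem _
    | add y₁ y₂ h₁ h₂ =>
      rw [add_mul]
      exact Submodule.add_mem _ h₁ h₂
    | single g a =>
      have hmem : g * (n : G) * g⁻¹ ∈ f.ker := f.normal_ker.conj_mem n n.2 g
      have h1 : MonoidAlgebra.single g a
            * (kerIncl K f).toLinearMap (MonoidAlgebra.single n (1 : K) - 1)
          = kerIncl K f (MonoidAlgebra.single ⟨_, hmem⟩ (1 : K) - 1)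
            * MonoidAlgebra.single g a := by
        rw [AlgHom.toLinearMap_apply, map_sub, map_sub, map_one, kerIncl_single, kerIncl_single,
          mul_sub, sub_mul, mul_one, one_mul, MonoidAlgebra.single_mul_single,
          MonoidAlgebra.single_mul_single, mul_one, one_mul, inv_mul_cancel_right]
      rw [h1]
      exact Submodule.mul_mem_mul
        (Submodule.mem_map_of_mem (Submodule.subset_span ⟨_, rfl⟩)) Submodule.mem_top
  | zero =>
    rw [mul_zero]
    exact Submodule.zero_mem _
  | add w₁ w₂ _ _ h₁ h₂ =>
    rw [mul_add]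
    exact Submodule.add_mem _ h₁ h₂
  | smul c w _ h =>
    rw [mul_smul_comm]
    exact Submodule.smul_mem _ _ h

theorem kerIdeal_pow_le (f : G →* Q) (k : ℕ) :
    kerIdeal K f ^ (k + 1)
      ≤ Submodule.map (kerIncl K f).toLinearMap (augSpan K f.ker ^ (k + 1)) * ⊤ := by
  induction k with
  | zero =>
    rw [zero_add, pow_one, pow_one]
    exact le_rfl
  | succ k ih =>
    rw [pow_succ]
    calc kerIdeal K f ^ (k + 1) * kerIdeal K f
        ≤ (Submodule.map (kerIncl K f).toLinearMap (augSpan K f.ker ^ (k + 1)) * ⊤)
            * kerIdeal K f := mul_le_mul' ih le_rfl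
      _ = Submodule.map (kerIncl K f).toLinearMap (augSpan K f.ker ^ (k + 1))
            * ((⊤ * Submodule.map (kerIncl K f).toLinearMap (augSpan K f.ker)) * ⊤) := by
          rw [kerIdeal]
          simp only [mul_assoc]
      _ ≤ Submodule.map (kerIncl K f).toLinearMap (augSpan K f.ker ^ (k + 1))
            * (kerIdeal K f * ⊤) :=
          mul_le_mul' le_rfl (mul_le_mul' (top_mul_map_le f) le_rfl)
      _ = (Submodule.map (kerIncl K f).toLinearMap (augSpan K f.ker ^ (k + 1))
            * Submodule.map (kerIncl K f).toLinearMap (augSpan K f.ker)) * (⊤ * ⊤) := by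
          rw [kerIdeal]
          simp only [mul_assoc]
      _ ≤ Submodule.map (kerIncl K f).toLinearMap (augSpan K f.ker ^ (k + 1 + 1)) * ⊤ := by
          rw [← Submodule.map_mul, ← pow_succ]
          exact mul_le_mul' le_rfl le_top

theorem orbit_inj (f : G →* Q) (g : G) : Function.Injective fun n : f.ker => (n : G) * g := by
  intro a b h
  exact Subtype.ext (mul_right_cancel h)

/-- Left `K[ker f]`-linear coefficient extraction along a coset. -/
theorem restrict_mem (f : G →* Q) (P : Submodule K (MonoidAlgebra K f.ker)) (hP : P * ⊤ ≤ P)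
    (x : MonoidAlgebra K G) (hx : x ∈ Submodule.map (kerIncl K f).toLinearMap P * ⊤) (g : G) :
    MonoidAlgebra.comapDomain (fun n : f.ker => (n : G) * g) (orbit_inj f g) x ∈ P := by
  refine Submodule.mul_induction_on hx ?_ ?_
  · intro m hm y hy
    clear hy
    obtain ⟨w, hw, rfl⟩ := hm
    induction y using MonoidAlgebra.induction_linear with
    | zero =>
      rw [mul_zero, MonoidAlgebra.comapDomain_zero]
      exact Submodule.zero_mem _
    | add y₁ y₂ h₁ h₂ =>
      rw [mul_add, MonoidAlgebra.comapDomain_add]
      exact Submodule.add_mem _ h₁ h₂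
    | single h b =>
      by_cases hc : g * h⁻¹ ∈ f.ker
      · have h1 : MonoidAlgebra.comapDomain (fun n : f.ker => (n : G) * g) (orbit_inj f g)
              ((kerIncl K f).toLinearMap w * MonoidAlgebra.single h b)
            = w * MonoidAlgebra.single (⟨g * h⁻¹, hc⟩ : f.ker)⁻¹ b := by
          apply MonoidAlgebra.coeff_injective
          ext n
          rw [MonoidAlgebra.coeff_comapDomain, Finsupp.comapDomain_apply,
            MonoidAlgebra.coeff_mul_single_apply, MonoidAlgebra.coeff_mul_single_apply, inv_inv,
            AlgHom.toLinearMap_apply, ← kerIncl_coeff f w (n * ⟨g * h⁻¹, hc⟩)]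
          simp [mul_assoc]
        rw [h1]
        exact hP (Submodule.mul_mem_mul hw Submodule.mem_top)
      · have h1 : MonoidAlgebra.comapDomain (fun n : f.ker => (n : G) * g) (orbit_inj f g)
              ((kerIncl K f).toLinearMap w * MonoidAlgebra.single h b) = 0 := by
          apply MonoidAlgebra.coeff_injective
          ext n
          rw [MonoidAlgebra.coeff_comapDomain, Finsupp.comapDomain_apply,
            MonoidAlgebra.coeff_mul_single_apply, AlgHom.toLinearMap_apply,
            kerIncl_coeff_notin, zero_mul]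
          · rfl
          · intro hmem
            apply hc
            have h2 : g * h⁻¹ = (n : G)⁻¹ * ((n : G) * g * h⁻¹) := by group
            rw [h2]
            exact f.ker.mul_mem (f.ker.inv_mem n.2) hmem
        rw [h1]
        exact Submodule.zero_mem _
  · intro x y hx hy
    rw [MonoidAlgebra.comapDomain_add]
    exact Submodule.add_mem _ hx hy

theorem inter_eq_zero_general (f : G →* Q)
    (hN : ⨅ k : ℕ, augSpan K f.ker ^ (k + 1) = ⊥) (x : MonoidAlgebra K G)
    (hx : ∀ k : ℕ, x ∈ kerIdeal K f ^ (k + 1)) : x = 0 := by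
  apply MonoidAlgebra.coeff_injective
  ext g
  have h1 : MonoidAlgebra.comapDomain (fun n : f.ker => (n : G) * g) (orbit_inj f g) x
      ∈ (⨅ k : ℕ, augSpan K f.ker ^ (k + 1)) := by
    rw [Submodule.mem_iInf]
    intro k
    exact restrict_mem f _ (augSpan_pow_mul_top K f.ker k) x (kerIdeal_pow_le f k (hx k)) g
  rw [hN, Submodule.mem_bot] at h1
  have h2 := congrArg (fun y => y.coeff 1) h1
  simpa using h2


/-- Direct finiteness passes from `K[Q]` to `K[G]`, and likewise for all matrix rings, along a
homomorphism `f : G → Q` whose kernel has a residually nilpotent augmentation ideal over `K`. -/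
theorem df_of_resnilp_kernel (f : G →* Q)
    (hN : ⨅ k : ℕ, (Submodule.span K (Set.range fun n : f.ker =>
        (MonoidAlgebra.single n (1 : K) - 1 : MonoidAlgebra K f.ker))) ^ (k + 1) = ⊥) :
    ((∀ a b : MonoidAlgebra K Q, a * b = 1 → b * a = 1) →
      ∀ a b : MonoidAlgebra K G, a * b = 1 → b * a = 1) ∧
    (∀ n : ℕ, (∀ A B : Matrix (Fin n) (Fin n) (MonoidAlgebra K Q), A * B = 1 → B * A = 1) →
      ∀ A B : Matrix (Fin n) (Fin n) (MonoidAlgebra K G), A * B = 1 → B * A = 1) :=
  ⟨df_of_submodule (MonoidAlgebra.mapDomainRingHom K f) (kerIdeal K f) (kernel_mem_kerIdeal f)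
      (inter_eq_zero_general f hN),
    fun n => df_matrix_of_submodule (MonoidAlgebra.mapDomainRingHom K f) (kerIdeal K f)
      (kernel_mem_kerIdeal f) (inter_eq_zero_general f hN) n⟩

end GroupRing

end Vale.Agent.Lib.P194.H11
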