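import Mathlib
import Vale.Agent.Lib.P194.H11.Abstract

/-!
# P194, helper11: the group algebra of an extension with cyclic kernel

Let `z` be an element of a group `G` generating a normal cyclic subgroup. The kernel of a map
`K[G] → K[Q]` induced by a homomorphism `G → Q` with kernel `⟨z⟩` is `(z - 1) * K[G]`, and
`K[G] * (z - 1) ⊆ (z - 1) * K[G]`. If `z` has infinite order, or has order `p ^ m` where `K` has
characteristic `p`, then no nonzero element of `K[G]` is a right multiple of all powers of `z - 1`.
-/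

namespace Vale.Agent.Lib.P194.H11

/-- For `n` in the cyclic subgroup generated by `z`, the element `n - 1` of the group algebra
is a right multiple of `z - 1`. -/
theorem single_sub_one_mem {K G : Type*} [Ring K] [Group G] (z n : G)
    (hn : n ∈ Subgroup.zpowers z) :
    ∃ y : MonoidAlgebra K G,
      MonoidAlgebra.single n (1 : K) - 1 = (MonoidAlgebra.single z (1 : K) - 1) * y := by
  let J : Subgroup G :=
    { carrier := {n | ∃ y : MonoidAlgebra K G,
        MonoidAlgebra.single n (1 : K) - 1 = (MonoidAlgebra.single z (1 : K) - 1) * y}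
      one_mem' := ⟨0, by rw [mul_zero, MonoidAlgebra.one_def, sub_self]⟩
      mul_mem' := by
        rintro a b ⟨y₁, h₁⟩ ⟨y₂, h₂⟩
        refine ⟨y₁ * MonoidAlgebra.single b (1 : K) + y₂, ?_⟩
        rw [mul_add, ← mul_assoc, ← h₁, ← h₂, sub_mul, MonoidAlgebra.single_mul_single, one_mul,
          one_mul]
        abel
      inv_mem' := by
        rintro a ⟨y, h⟩
        refine ⟨-(y * MonoidAlgebra.single a⁻¹ (1 : K)), ?_⟩
        rw [mul_neg, ← mul_assoc, ← h, sub_mul, MonoidAlgebra.single_mul_single, one_mul,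
          one_mul, mul_inv_cancel, ← MonoidAlgebra.one_def]
        abel }
  have hz : z ∈ J := ⟨1, by rw [mul_one]⟩
  exact (Subgroup.zpowers_le.mpr hz) hn

/-- If the cyclic subgroup generated by `z` is normal, then `K[G] * (z - 1) ⊆ (z - 1) * K[G]`. -/
theorem mul_sub_one_comm {K G : Type*} [Ring K] [Group G] (z : G)
    (hN : (Subgroup.zpowers z).Normal) (r : MonoidAlgebra K G) :
    ∃ r' : MonoidAlgebra K G,
      r * (MonoidAlgebra.single z (1 : K) - 1) = (MonoidAlgebra.single z (1 : K) - 1) * r' := by
  induction r using MonoidAlgebra.induction_linear with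
  | zero => exact ⟨0, by rw [zero_mul, mul_zero]⟩
  | add x₁ x₂ h₁ h₂ =>
    obtain ⟨y₁, h₁⟩ := h₁
    obtain ⟨y₂, h₂⟩ := h₂
    exact ⟨y₁ + y₂, by rw [add_mul, mul_add, h₁, h₂]⟩
  | single g a =>
    have hmem : g * z * g⁻¹ ∈ Subgroup.zpowers z := hN.conj_mem z (Subgroup.mem_zpowers z) g
    obtain ⟨y, hy⟩ := single_sub_one_mem (K := K) z (g * z * g⁻¹) hmem
    refine ⟨y * MonoidAlgebra.single g a, ?_⟩
    rw [← mul_assoc, ← hy, sub_mul, one_mul, MonoidAlgebra.single_mul_single, one_mul,
      inv_mul_cancel_right, mul_sub, mul_one, MonoidAlgebra.single_mul_single, mul_one]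

/-- The kernel of the map `K[G] → K[Q]` induced by a homomorphism `f : G → Q` with kernel `⟨z⟩`
is contained in `(z - 1) * K[G]`. -/
theorem kernel_mem {K G Q : Type*} [Ring K] [Group G] [Group Q] (f : G →* Q) (z : G)
    (hker : f.ker = Subgroup.zpowers z) (x : MonoidAlgebra K G)
    (hx : MonoidAlgebra.mapDomainRingHom K f x = 0) :
    ∃ y : MonoidAlgebra K G, x = (MonoidAlgebra.single z (1 : K) - 1) * y := by
  classical
  have key : ∀ x : MonoidAlgebra K G, ∃ y : MonoidAlgebra K G,
      x - MonoidAlgebra.mapDomain (Function.invFun f ∘ f) x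
        = (MonoidAlgebra.single z (1 : K) - 1) * y := by
    intro x
    induction x using MonoidAlgebra.induction_linear with
    | zero => exact ⟨0, by rw [MonoidAlgebra.mapDomain_zero, sub_zero, mul_zero]⟩
    | add x₁ x₂ h₁ h₂ =>
      obtain ⟨y₁, h₁⟩ := h₁
      obtain ⟨y₂, h₂⟩ := h₂
      refine ⟨y₁ + y₂, ?_⟩
      rw [MonoidAlgebra.mapDomain_add, mul_add, ← h₁, ← h₂]
      abel
    | single g a =>
      have hf : f (Function.invFun f (f g)) = f g := Function.invFun_eq ⟨g, rfl⟩
      have hmem : g / Function.invFun f (f g) ∈ Subgroup.zpowers z := by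
        rw [← hker, MonoidHom.mem_ker, map_div, hf, div_self']
      obtain ⟨y, hy⟩ := single_sub_one_mem (K := K) z _ hmem
      refine ⟨y * MonoidAlgebra.single (Function.invFun f (f g)) a, ?_⟩
      rw [← mul_assoc, ← hy, sub_mul, one_mul, MonoidAlgebra.single_mul_single, one_mul,
        div_mul_cancel, MonoidAlgebra.mapDomain_single]
      rfl
  obtain ⟨y, hy⟩ := key x
  refine ⟨y, ?_⟩
  rw [← hy]
  have h1 : Finsupp.mapDomain f x.coeff = 0 := congrArg MonoidAlgebra.coeff hx
  have h3 : MonoidAlgebra.mapDomain (Function.invFun f ∘ f) x = 0 := by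
    apply MonoidAlgebra.coeff_injective
    show Finsupp.mapDomain _ x.coeff = 0
    rw [Finsupp.mapDomain_comp, h1, Finsupp.mapDomain_zero]
  rw [h3, sub_zero]

/-- The coefficients of `(z - 1) * y`. -/
theorem coeff_sub_one_mul {K G : Type*} [Ring K] [Group G] (z : G) (y : MonoidAlgebra K G)
    (h : G) :
    ((MonoidAlgebra.single z (1 : K) - 1) * y).coeff h = y.coeff (z⁻¹ * h) - y.coeff h := by
  rw [sub_mul, one_mul, MonoidAlgebra.coeff_sub, Finsupp.sub_apply,
    MonoidAlgebra.coeff_single_mul_apply, one_mul]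

/-- A finitely supported function on `ℤ` whose backward difference vanishes below `A`
vanishes below `A`. -/
theorem diff_vanish_below {K : Type*} [Ring K] (u : ℤ → K) (hu : (Function.support u).Finite)
    (A : ℤ) (hw : ∀ j < A, u (j - 1) - u j = 0) : ∀ j < A, u j = 0 := by
  obtain ⟨m, hm⟩ := hu.bddBelow
  have hm' : ∀ j < m, u j = 0 := by
    intro j hj
    by_contra hne
    exact absurd (hm (Function.mem_support.mpr hne)) (not_le.mpr hj)
  intro j hj
  have hstep : ∀ n : ℕ, u j = u (j - n) := by
    intro n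
    induction n with
    | zero => simp
    | succ n ih =>
      have h1 := hw (j - n) (by omega)
      rw [ih]
      have h2 : j - (n : ℤ) - 1 = j - ((n + 1 : ℕ) : ℤ) := by push_cast; ring
      rw [h2] at h1
      exact (sub_eq_zero.mp h1).symm
  rw [hstep (j - m + 1).toNat]
  apply hm'
  omega

/-- A finitely supported function on `ℤ` whose backward difference vanishes above `B`
vanishes from `B` on. -/
theorem diff_vanish_above {K : Type*} [Ring K] (u : ℤ → K) (hu : (Function.support u).Finite)
    (B : ℤ) (hw : ∀ j > B, u (j - 1) - u j = 0) : ∀ j ≥ B, u j = 0 := by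
  obtain ⟨m, hm⟩ := hu.bddAbove
  have hm' : ∀ j > m, u j = 0 := by
    intro j hj
    by_contra hne
    exact absurd (hm (Function.mem_support.mpr hne)) (not_le.mpr hj)
  intro j hj
  have hstep : ∀ n : ℕ, u j = u (j + n) := by
    intro n
    induction n with
    | zero => simp
    | succ n ih =>
      have h1 := hw (j + n + 1) (by omega)
      rw [ih]
      have h2 : j + (n : ℤ) + 1 - 1 = j + n := by ring
      have h3 : j + (n : ℤ) + 1 = j + ((n + 1 : ℕ) : ℤ) := by push_cast; ring
      rw [h2, h3] at h1
      exact sub_eq_zero.mp h1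
  rw [hstep (m - j + 1).toNat]
  apply hm'
  omega

/-- Along an orbit `j ↦ z ^ j * g` of an element of infinite order, the coefficients of an
element of the group algebra have finite support. -/
theorem orbit_support_finite {K G : Type*} [Ring K] [Group G] (z : G) (hz : orderOf z = 0)
    (y : MonoidAlgebra K G) (g : G) :
    (Function.support fun j : ℤ => y.coeff (z ^ j * g)).Finite := by
  have hinj : Function.Injective fun j : ℤ => z ^ j * g := by
    intro i j hij
    have h1 : z ^ i = z ^ j := mul_right_cancel hij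
    exact (injective_zpow_iff_not_isOfFinOrder.mpr (orderOf_eq_zero_iff.mp hz)) h1
  have h2 : (Function.support fun j : ℤ => y.coeff (z ^ j * g))
      = (fun j : ℤ => z ^ j * g) ⁻¹' (y.coeff.support : Set G) := by
    ext j
    simp
  rw [h2]
  exact Set.Finite.preimage hinj.injOn (Finset.finite_toSet _)

/-- The coefficients of `(z - 1) * y` along an orbit. -/
theorem coeff_orbit {K G : Type*} [Ring K] [Group G] (z : G) (y : MonoidAlgebra K G) (g : G)
    (j : ℤ) :
    ((MonoidAlgebra.single z (1 : K) - 1) * y).coeff (z ^ j * g)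
      = y.coeff (z ^ (j - 1) * g) - y.coeff (z ^ j * g) := by
  rw [coeff_sub_one_mul, ← mul_assoc, ← zpow_neg_one, ← zpow_add,
    show (-1 : ℤ) + j = j - 1 by ring]

/-- If `(z - 1) ^ k * y` vanishes along the orbit of `g` outside the window `[A, B]`, then `y`
vanishes along the orbit outside the window `[A, B - k]`. -/
theorem pow_vanish {K G : Type*} [Ring K] [Group G] (z : G) (hz : orderOf z = 0) (g : G)
    (A B : ℤ) :
    ∀ (k : ℕ) (y : MonoidAlgebra K G),
      (∀ j < A, ((MonoidAlgebra.single z (1 : K) - 1) ^ k * y).coeff (z ^ j * g) = 0) →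
      (∀ j > B, ((MonoidAlgebra.single z (1 : K) - 1) ^ k * y).coeff (z ^ j * g) = 0) →
      (∀ j < A, y.coeff (z ^ j * g) = 0) ∧ (∀ j > B - k, y.coeff (z ^ j * g) = 0) := by
  intro k
  induction k with
  | zero =>
    intro y h1 h2
    simp only [pow_zero, one_mul] at h1 h2
    exact ⟨h1, by simpa using h2⟩
  | succ k ih =>
    intro y h1 h2
    rw [pow_succ, mul_assoc] at h1 h2
    obtain ⟨h3, h4⟩ := ih _ h1 h2
    have hfin := orbit_support_finite z hz y g
    refine ⟨diff_vanish_below _ hfin A ?_, ?_⟩
    · intro j hj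
      rw [← coeff_orbit]
      exact h3 j hj
    · intro j hj
      refine diff_vanish_above _ hfin (B - k) ?_ j (by push_cast at hj; omega)
      intro i hi
      rw [← coeff_orbit]
      exact h4 i hi

/-- If `y` vanishes along the orbit of `g`, so does `(z - 1) ^ k * y`. -/
theorem pow_vanish_forward {K G : Type*} [Ring K] [Group G] (z : G) (g : G)
    (y : MonoidAlgebra K G) (hy : ∀ j : ℤ, y.coeff (z ^ j * g) = 0) :
    ∀ (k : ℕ) (j : ℤ),
      ((MonoidAlgebra.single z (1 : K) - 1) ^ k * y).coeff (z ^ j * g) = 0 := by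
  intro k
  induction k with
  | zero =>
    intro j
    rw [pow_zero, one_mul]
    exact hy j
  | succ k ih =>
    intro j
    rw [pow_succ', mul_assoc, coeff_orbit, ih, ih, sub_zero]

/-- If `z` has infinite order, only `0` is a right multiple of every power of `z - 1`. -/
theorem inter_eq_zero_of_infinite_order {K G : Type*} [Ring K] [Group G] (z : G)
    (hz : orderOf z = 0) (x : MonoidAlgebra K G)
    (hx : ∀ k : ℕ, ∃ y : MonoidAlgebra K G,
      x = (MonoidAlgebra.single z (1 : K) - 1) ^ k * y) :
    x = 0 := by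
  by_contra hne
  have hex : ∃ g, x.coeff g ≠ 0 := by
    by_contra hall
    push Not at hall
    exact hne (MonoidAlgebra.coeff_injective (Finsupp.ext hall))
  obtain ⟨g, hg⟩ := hex
  have hfin := orbit_support_finite z hz x g
  obtain ⟨A, hA⟩ := hfin.bddBelow
  obtain ⟨B, hB⟩ := hfin.bddAbove
  have hA' : ∀ j < A, x.coeff (z ^ j * g) = 0 := by
    intro j hj
    by_contra hne'
    exact absurd (hA (Function.mem_support.mpr hne')) (not_le.mpr hj)
  have hB' : ∀ j > B, x.coeff (z ^ j * g) = 0 := by
    intro j hj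
    by_contra hne'
    exact absurd (hB (Function.mem_support.mpr hne')) (not_le.mpr hj)
  obtain ⟨y, hy⟩ := hx (B - A + 1).toNat
  have h := pow_vanish z hz g A B (B - A + 1).toNat y (by rw [← hy]; exact hA')
    (by rw [← hy]; exact hB')
  have hall : ∀ j : ℤ, y.coeff (z ^ j * g) = 0 := by
    intro j
    by_cases hj : j < A
    · exact h.1 j hj
    · exact h.2 j (by omega)
  have h0 := pow_vanish_forward z g y hall (B - A + 1).toNat 0
  rw [← hy, zpow_zero, one_mul] at h0
  exact hg h0

/-- If `z` has order `p ^ m` and `K` has characteristic `p`, then `(z - 1) ^ (p ^ m) = 0`, so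
only `0` is a right multiple of every power of `z - 1`. -/
theorem inter_eq_zero_of_char {K G : Type*} [Ring K] [Group G] (z : G) (p m : ℕ)
    (hp : p.Prime) [CharP K p] (hz : orderOf z = p ^ m) (x : MonoidAlgebra K G)
    (hx : ∀ k : ℕ, ∃ y : MonoidAlgebra K G,
      x = (MonoidAlgebra.single z (1 : K) - 1) ^ k * y) :
    x = 0 := by
  have hfact : Fact p.Prime := ⟨hp⟩
  have hchar : CharP (MonoidAlgebra K G) p :=
    charP_of_injective_ringHom (f := (MonoidAlgebra.singleOneRingHom : K →+* MonoidAlgebra K G))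
      MonoidAlgebra.single_right_injective p
  obtain ⟨y, hy⟩ := hx (p ^ m)
  rw [hy, sub_pow_char_pow_of_commute _ _ (Commute.one_right _), MonoidAlgebra.single_pow,
    one_pow, one_pow, ← hz, pow_orderOf_eq_one, ← MonoidAlgebra.one_def, sub_self, zero_mul]

/-- Direct finiteness passes from `K[Q]` to `K[G]`, and likewise for all matrix rings, along a
homomorphism `f : G → Q` with cyclic kernel generated by an element of infinite order, or of
order `p ^ m` where `K` has characteristic `p`. -/
theorem df_of_cyclic_kernel {K G Q : Type*} [Ring K] [Group G] [Group Q] (f : G →* Q) (z : G)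
    (hker : f.ker = Subgroup.zpowers z)
    (hord : orderOf z = 0 ∨ ∃ p m : ℕ, p.Prime ∧ CharP K p ∧ orderOf z = p ^ m) :
    ((∀ a b : MonoidAlgebra K Q, a * b = 1 → b * a = 1) →
      ∀ a b : MonoidAlgebra K G, a * b = 1 → b * a = 1) ∧
    (∀ n : ℕ, (∀ A B : Matrix (Fin n) (Fin n) (MonoidAlgebra K Q), A * B = 1 → B * A = 1) →
      ∀ A B : Matrix (Fin n) (Fin n) (MonoidAlgebra K G), A * B = 1 → B * A = 1) := by
  have hN : (Subgroup.zpowers z).Normal := hker ▸ MonoidHom.normal_ker f
  have hint : ∀ x : MonoidAlgebra K G,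
      (∀ k : ℕ, ∃ y, x = (MonoidAlgebra.single z (1 : K) - 1) ^ k * y) → x = 0 := by
    intro x hx
    rcases hord with h0 | ⟨p, m, hp, hchar, hz⟩
    · exact inter_eq_zero_of_infinite_order z h0 x hx
    · exact inter_eq_zero_of_char z p m hp hz x hx
  exact ⟨df_of_kernel (MonoidAlgebra.mapDomainRingHom K f) (MonoidAlgebra.single z (1 : K) - 1)
      (mul_sub_one_comm z hN) (kernel_mem f z hker) hint,
    fun n => df_matrix_of_kernel (MonoidAlgebra.mapDomainRingHom K f)
      (MonoidAlgebra.single z (1 : K) - 1) (mul_sub_one_comm z hN) (kernel_mem f z hker) hint n⟩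

end Vale.Agent.Lib.P194.H11
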