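import Mathlib
import Vale.Agent.Lib.P194.H11.General

/-!
# P194, helper11: the augmentation ideal of a free group algebra is residually nilpotent

For a field `K` and a free group `F`, the powers `ω ^ k`, `k ≥ 1`, of the augmentation ideal `ω`
of `K[F]` have zero intersection (Magnus, Fox). The proof uses Fox derivatives, realised as the
`(0, 1)` entries of the `2 × 2` matrix representation `x ↦ [[x, δ], [0, 1]]`: the Fox derivative
maps `ω ^ (k + 1)` into `ω ^ k`, and on a group element `w` it is a signed sum of prefixes of `w`.
Given a nonzero element of the intersection, applying the operator of the last letter of a longest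
word of its support produces a nonzero element of the intersection with fewer longest words.

Consequently the same holds for every fully residually free group, and direct finiteness passes
along homomorphisms with such kernels.
-/

namespace Vale.Agent.Lib.P194.H11

section Fox

noncomputable def foxUnit (K : Type*) [Field K] {X : Type*} [DecidableEq X] (x y : X) :
    (Matrix (Fin 2) (Fin 2) (MonoidAlgebra K (FreeGroup X)))ˣ where
  val := !![MonoidAlgebra.single (FreeGroup.of y) (1 : K), if y = x then 1 else 0; 0, 1]
  inv := !![MonoidAlgebra.single (FreeGroup.of y)⁻¹ (1 : K),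
    if y = x then -MonoidAlgebra.single (FreeGroup.of y)⁻¹ (1 : K) else 0; 0, 1]
  val_inv := by
    ext i j
    fin_cases i <;> fin_cases j <;>
      simp [Matrix.mul_apply, Fin.sum_univ_two, MonoidAlgebra.single_mul_single,
        MonoidAlgebra.one_def]
    split_ifs <;> simp [MonoidAlgebra.single_mul_single, MonoidAlgebra.one_def]
  inv_val := by
    ext i j
    fin_cases i <;> fin_cases j <;>
      simp [Matrix.mul_apply, Fin.sum_univ_two, MonoidAlgebra.single_mul_single,
        MonoidAlgebra.one_def]
    split_ifs <;> simp [MonoidAlgebra.single_mul_single, MonoidAlgebra.one_def]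

variable {K : Type*} [Field K] {X : Type*} [DecidableEq X]

/-- The Fox matrix representation of the free group. -/
noncomputable def foxHom (K : Type*) [Field K] {X : Type*} [DecidableEq X] (x : X) :
    FreeGroup X →* (Matrix (Fin 2) (Fin 2) (MonoidAlgebra K (FreeGroup X)))ˣ :=
  FreeGroup.lift (foxUnit K x)

/-- Its linear extension to the group algebra. -/
noncomputable def foxAlg (K : Type*) [Field K] {X : Type*} [DecidableEq X] (x : X) :
    MonoidAlgebra K (FreeGroup X) →ₐ[K] Matrix (Fin 2) (Fin 2) (MonoidAlgebra K (FreeGroup X)) :=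
  MonoidAlgebra.lift K (Matrix (Fin 2) (Fin 2) (MonoidAlgebra K (FreeGroup X))) (FreeGroup X)
    ((Units.coeHom _).comp (foxHom K x))

theorem foxHom_entries (x : X) (g : FreeGroup X) :
    ((foxHom K x g : Matrix (Fin 2) (Fin 2) (MonoidAlgebra K (FreeGroup X))) 0 0
        = MonoidAlgebra.single g (1 : K)) ∧
    ((foxHom K x g : Matrix (Fin 2) (Fin 2) (MonoidAlgebra K (FreeGroup X))) 1 0 = 0) ∧
    ((foxHom K x g : Matrix (Fin 2) (Fin 2) (MonoidAlgebra K (FreeGroup X))) 1 1 = 1) := by
  induction g using FreeGroup.induction_on with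
  | C1 =>
    rw [map_one, Units.val_one]
    refine ⟨?_, ?_, ?_⟩ <;> simp [MonoidAlgebra.one_def]
  | of y =>
    have h : foxHom K x (FreeGroup.of y) = foxUnit K x y := FreeGroup.lift_apply_of
    rw [h]
    refine ⟨?_, ?_, ?_⟩ <;> simp [foxUnit]
  | inv_of y _ =>
    have h : foxHom K x (FreeGroup.of y) = foxUnit K x y := FreeGroup.lift_apply_of
    rw [map_inv, h]
    refine ⟨?_, ?_, ?_⟩ <;> simp [foxUnit]
  | mul a b ha hb =>
    obtain ⟨ha0, ha1, ha2⟩ := ha
    obtain ⟨hb0, hb1, hb2⟩ := hb
    rw [map_mul, Units.val_mul]
    refine ⟨?_, ?_, ?_⟩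
    · rw [Matrix.mul_apply, Fin.sum_univ_two, ha0, hb0, hb1, mul_zero, add_zero,
        MonoidAlgebra.single_mul_single, mul_one]
    · rw [Matrix.mul_apply, Fin.sum_univ_two, ha1, hb1, zero_mul, mul_zero, add_zero]
    · rw [Matrix.mul_apply, Fin.sum_univ_two, ha1, ha2, hb2, zero_mul, mul_one, zero_add]

theorem foxAlg_single (x : X) (g : FreeGroup X) (a : K) :
    foxAlg K x (MonoidAlgebra.single g a)
      = a • (foxHom K x g : Matrix (Fin 2) (Fin 2) (MonoidAlgebra K (FreeGroup X))) := by
  rw [foxAlg, MonoidAlgebra.lift_single]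
  rfl

theorem foxAlg_entries (x : X) (u : MonoidAlgebra K (FreeGroup X)) :
    (foxAlg K x u 0 0 = u) ∧ (foxAlg K x u 1 0 = 0) := by
  induction u using MonoidAlgebra.induction_linear with
  | zero => rw [map_zero]; exact ⟨rfl, rfl⟩
  | add u v hu hv =>
    rw [map_add, Matrix.add_apply, Matrix.add_apply, hu.1, hu.2, hv.1, hv.2, add_zero]
    exact ⟨rfl, rfl⟩
  | single g a =>
    rw [foxAlg_single, Matrix.smul_apply, Matrix.smul_apply, (foxHom_entries x g).1,
      (foxHom_entries x g).2.1, smul_zero, MonoidAlgebra.smul_single, smul_eq_mul, mul_one]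
    exact ⟨rfl, rfl⟩

theorem foxAlg_aug (x : X) (b : MonoidAlgebra K (FreeGroup X))
    (hb : b ∈ augSpan K (FreeGroup X)) : foxAlg K x b 1 1 = 0 := by
  induction hb using Submodule.span_induction with
  | mem b hb =>
    obtain ⟨n, rfl⟩ := hb
    show foxAlg K x (MonoidAlgebra.single n (1 : K) - 1) 1 1 = 0
    rw [map_sub, map_one, foxAlg_single, one_smul, Matrix.sub_apply, (foxHom_entries x n).2.2,
      Matrix.one_apply_eq, sub_self]
  | zero => rw [map_zero]; rfl
  | add a b _ _ ha hb => rw [map_add, Matrix.add_apply, ha, hb, add_zero]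
  | smul c a _ ha => rw [map_smul, Matrix.smul_apply, ha, smul_zero]

/-- The Fox derivative with respect to the generator `x`. -/
noncomputable def foxD (K : Type*) [Field K] {X : Type*} [DecidableEq X] (x : X) :
    MonoidAlgebra K (FreeGroup X) →ₗ[K] MonoidAlgebra K (FreeGroup X) :=
  (Matrix.entryLinearMap K (MonoidAlgebra K (FreeGroup X)) (0 : Fin 2) (1 : Fin 2)).comp
    (foxAlg K x).toLinearMap

theorem foxD_mul (x : X) (a b : MonoidAlgebra K (FreeGroup X)) :
    foxD K x (a * b) = a * foxD K x b + foxD K x a * (foxAlg K x b 1 1) := by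
  show foxAlg K x (a * b) 0 1 = a * foxAlg K x b 0 1 + foxAlg K x a 0 1 * (foxAlg K x b 1 1)
  rw [map_mul, Matrix.mul_apply, Fin.sum_univ_two, (foxAlg_entries x a).1]

/-- The Fox derivative lowers the augmentation filtration by one. -/
theorem foxD_mem (x : X) (k : ℕ) (u : MonoidAlgebra K (FreeGroup X))
    (hu : u ∈ augSpan K (FreeGroup X) ^ (k + 2)) :
    foxD K x u ∈ augSpan K (FreeGroup X) ^ (k + 1) := by
  rw [pow_succ] at hu
  refine Submodule.mul_induction_on hu ?_ ?_
  · intro a ha b hb
    rw [foxD_mul, foxAlg_aug x b hb, mul_zero, add_zero]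
    exact augSpan_pow_mul_top K (FreeGroup X) k (Submodule.mul_mem_mul ha Submodule.mem_top)
  · intro a b ha hb
    rw [map_add]
    exact Submodule.add_mem _ ha hb


/-- The operator attached to a letter `t`: the Fox derivative for a positive letter, and the Fox
derivative followed by right multiplication by `-x` for a negative letter. -/
noncomputable def foxE (K : Type*) [Field K] {X : Type*} [DecidableEq X] (t : X × Bool) :
    MonoidAlgebra K (FreeGroup X) →ₗ[K] MonoidAlgebra K (FreeGroup X) :=
  if t.2 then foxD K t.1
  else -((LinearMap.mulRight K (MonoidAlgebra.single (FreeGroup.of t.1) (1 : K))).comp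
    (foxD K t.1))

theorem foxE_mem (t : X × Bool) (u : MonoidAlgebra K (FreeGroup X))
    (hu : ∀ k : ℕ, u ∈ augSpan K (FreeGroup X) ^ (k + 1)) (k : ℕ) :
    foxE K t u ∈ augSpan K (FreeGroup X) ^ (k + 1) := by
  obtain ⟨x, b⟩ := t
  cases b with
  | true =>
    simp only [foxE, if_true]
    exact foxD_mem x k u (hu (k + 1))
  | false =>
    simp only [foxE, Bool.false_eq_true, if_false, LinearMap.neg_apply, LinearMap.comp_apply,
      LinearMap.mulRight_apply]
    exact Submodule.neg_mem _ (augSpan_pow_mul_top K (FreeGroup X) k
      (Submodule.mul_mem_mul (foxD_mem x k u (hu (k + 1))) Submodule.mem_top))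

theorem foxD_single_mul (x : X) (w h : FreeGroup X) :
    foxD K x (MonoidAlgebra.single (w * h) (1 : K))
      = MonoidAlgebra.single w (1 : K) * foxD K x (MonoidAlgebra.single h (1 : K))
        + foxD K x (MonoidAlgebra.single w (1 : K)) := by
  have h1 : (MonoidAlgebra.single (w * h) (1 : K) : MonoidAlgebra K (FreeGroup X))
      = MonoidAlgebra.single w (1 : K) * MonoidAlgebra.single h (1 : K) := by
    rw [MonoidAlgebra.single_mul_single, one_mul]
  rw [h1, foxD_mul, foxAlg_single, one_smul, (foxHom_entries x h).2.2, mul_one]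

theorem foxD_pos (x y : X) :
    foxD K x (MonoidAlgebra.single (FreeGroup.of y) (1 : K)) = if y = x then 1 else 0 := by
  show foxAlg K x (MonoidAlgebra.single (FreeGroup.of y) (1 : K)) 0 1 = _
  have h : foxHom K x (FreeGroup.of y) = foxUnit K x y := FreeGroup.lift_apply_of
  rw [foxAlg_single, one_smul, h]
  simp [foxUnit]

theorem mk_pos_letter (y : X) : FreeGroup.mk [(y, true)] = FreeGroup.of y := rfl

theorem mk_neg_letter (y : X) : FreeGroup.mk [(y, false)] = (FreeGroup.of y)⁻¹ := rfl

theorem foxD_neg (x y : X) :
    foxD K x (MonoidAlgebra.single (FreeGroup.of y)⁻¹ (1 : K))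
      = if y = x then -MonoidAlgebra.single (FreeGroup.of y)⁻¹ (1 : K) else 0 := by
  show foxAlg K x (MonoidAlgebra.single (FreeGroup.of y)⁻¹ (1 : K)) 0 1 = _
  have h : foxHom K x (FreeGroup.of y) = foxUnit K x y := FreeGroup.lift_apply_of
  rw [foxAlg_single, one_smul, map_inv, h]
  simp [foxUnit]

/-- The recursion for the letter operators along a word. -/
theorem foxE_letter (t s : X × Bool) (w : FreeGroup X) :
    foxE K t (MonoidAlgebra.single (w * FreeGroup.mk [s]) (1 : K))
      = foxE K t (MonoidAlgebra.single w (1 : K))
        + (if s = t then MonoidAlgebra.single w (1 : K) else 0)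
        - (if s = (t.1, !t.2) then MonoidAlgebra.single (w * FreeGroup.mk [s]) (1 : K) else 0) := by
  obtain ⟨x, b⟩ := t
  obtain ⟨y, c⟩ := s
  cases b <;> cases c <;> by_cases hyx : y = x <;>
    simp [foxE, foxD_single_mul, foxD_pos, foxD_neg, hyx, mk_neg_letter, mk_pos_letter,
      MonoidAlgebra.single_mul_single, add_mul, mul_assoc]
  all_goals abel


theorem mk_letter_cancel (t : X × Bool) :
    FreeGroup.mk [(t.1, !t.2)] * FreeGroup.mk [t] = 1 := by
  have h : FreeGroup.mk [(t.1, !t.2)] = (FreeGroup.mk [t])⁻¹ := by
    rw [FreeGroup.inv_mk]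
    rfl
  rw [h, inv_mul_cancel]

theorem norm_mk_letter_le (s : X × Bool) : (FreeGroup.mk [s]).norm ≤ 1 :=
  FreeGroup.norm_mk_le

/-- Every nontrivial element is a shorter element times a letter. -/
theorem exists_last_letter (w : FreeGroup X) (hw : w ≠ 1) :
    ∃ (w' : FreeGroup X) (s : X × Bool), w = w' * FreeGroup.mk [s] ∧ w'.norm + 1 = w.norm := by
  have hne : w.toWord ≠ [] := fun h => hw (FreeGroup.toWord_eq_nil_iff.mp h)
  refine ⟨FreeGroup.mk w.toWord.dropLast, w.toWord.getLast hne, ?_, ?_⟩
  · rw [FreeGroup.mul_mk, List.dropLast_append_getLast, FreeGroup.mk_toWord]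
  · have h1 : (FreeGroup.mk w.toWord.dropLast).norm ≤ w.toWord.dropLast.length :=
      FreeGroup.norm_mk_le
    have h2 : w.toWord.dropLast.length + 1 = w.toWord.length := by
      rw [List.length_dropLast]
      have := List.length_pos_of_ne_nil hne
      omega
    have h3 : w.norm ≤ (FreeGroup.mk w.toWord.dropLast).norm
        + (FreeGroup.mk [w.toWord.getLast hne]).norm := by
      have h4 : w = FreeGroup.mk w.toWord.dropLast * FreeGroup.mk [w.toWord.getLast hne] := by
        rw [FreeGroup.mul_mk, List.dropLast_append_getLast, FreeGroup.mk_toWord]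
      calc w.norm = (FreeGroup.mk w.toWord.dropLast
            * FreeGroup.mk [w.toWord.getLast hne]).norm := by rw [← h4]
        _ ≤ _ := FreeGroup.norm_mul_le _ _
    have h5 := norm_mk_letter_le (w.toWord.getLast hne)
    have h6 : w.norm = w.toWord.length := rfl
    omega

theorem foxE_one (t : X × Bool) : foxE K t (MonoidAlgebra.single (1 : FreeGroup X) (1 : K)) = 0 := by
  have h1 : foxD K t.1 (MonoidAlgebra.single (1 : FreeGroup X) (1 : K)) = 0 := by
    show foxAlg K t.1 (MonoidAlgebra.single (1 : FreeGroup X) (1 : K)) 0 1 = 0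
    rw [foxAlg_single, one_smul, map_one, Units.val_one]
    simp
  obtain ⟨x, b⟩ := t
  cases b <;> simp [foxE, h1]

theorem coeff_single_one_ne {g w : FreeGroup X}
    (h : (MonoidAlgebra.single w (1 : K)).coeff g ≠ 0) : g = w := by
  by_contra hne
  apply h
  rw [MonoidAlgebra.coeff_single, Finsupp.single_apply, if_neg (fun h' => hne h'.symm)]

theorem foxE_letter_coeff (t s : X × Bool) (w g : FreeGroup X) :
    (foxE K t (MonoidAlgebra.single (w * FreeGroup.mk [s]) (1 : K))).coeff g
      = (foxE K t (MonoidAlgebra.single w (1 : K))).coeff g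
        + (if s = t then (MonoidAlgebra.single w (1 : K)).coeff g else 0)
        - (if s = (t.1, !t.2) then
            (MonoidAlgebra.single (w * FreeGroup.mk [s]) (1 : K)).coeff g else 0) := by
  rw [foxE_letter]
  split_ifs <;> simp [MonoidAlgebra.coeff_add, MonoidAlgebra.coeff_sub]

theorem coeff_single_of_ne {g w : FreeGroup X} (h : g ≠ w) :
    (MonoidAlgebra.single w (1 : K)).coeff g = 0 := by
  rw [MonoidAlgebra.coeff_single, Finsupp.single_apply, if_neg (fun h' => h h'.symm)]

/-- (A): the support of the letter operator on a group element `w` consists of strictly shorter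
elements and possibly `w` itself. -/
theorem foxE_support (t : X × Bool) (n : ℕ) :
    ∀ (w g : FreeGroup X), w.norm ≤ n →
      (foxE K t (MonoidAlgebra.single w (1 : K))).coeff g ≠ 0 → g.norm < w.norm ∨ g = w := by
  induction n with
  | zero =>
    intro w g hw hg
    have hw1 : w = 1 := FreeGroup.norm_eq_zero.mp (Nat.le_zero.mp hw)
    rw [hw1, foxE_one] at hg
    exact absurd rfl hg
  | succ n ih =>
    intro w g hw hg
    by_cases hw1 : w = 1
    · rw [hw1, foxE_one] at hg
      exact absurd rfl hg
    · obtain ⟨w', s, hws, hnorm⟩ := exists_last_letter w hw1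
      by_cases h1 : (foxE K t (MonoidAlgebra.single w' (1 : K))).coeff g = 0
      · by_cases h2 : g = w'
        · left
          rw [h2]
          omega
        · right
          by_contra hgw
          apply hg
          rw [hws, foxE_letter_coeff, h1, coeff_single_of_ne h2,
            coeff_single_of_ne (by rw [← hws]; exact hgw)]
          simp
      · left
        rcases ih w' g (by omega) h1 with h | h
        · omega
        · rw [h]
          omega

theorem foxE_support' (t : X × Bool) (w g : FreeGroup X)
    (hg : (foxE K t (MonoidAlgebra.single w (1 : K))).coeff g ≠ 0) : g.norm < w.norm ∨ g = w :=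
  foxE_support t w.norm w g le_rfl hg

/-- (B): for `w₀ = q * t` with `q` shorter, the letter operator of `t` at `w₀` has coefficient
`0` at `w₀` and `1` at `q`. -/
theorem foxE_last (t : X × Bool) (q : FreeGroup X)
    (hq : q.norm + 1 = (q * FreeGroup.mk [t]).norm) :
    (foxE K t (MonoidAlgebra.single (q * FreeGroup.mk [t]) (1 : K))).coeff (q * FreeGroup.mk [t]) = 0
    ∧ (foxE K t (MonoidAlgebra.single (q * FreeGroup.mk [t]) (1 : K))).coeff q = 1 := by
  have hne : q * FreeGroup.mk [t] ≠ q := by
    intro h
    rw [h] at hq
    omega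
  have htt : t ≠ (t.1, !t.2) := by
    obtain ⟨x, b⟩ := t
    cases b <;> simp
  have hq0 : (foxE K t (MonoidAlgebra.single q (1 : K))).coeff (q * FreeGroup.mk [t]) = 0 := by
    by_contra h
    rcases foxE_support' t q _ h with h' | h'
    · omega
    · exact hne h'
  have hqq : (foxE K t (MonoidAlgebra.single q (1 : K))).coeff q = 0 := by
    by_cases hq1 : q = 1
    · rw [hq1, foxE_one]
      rfl
    · obtain ⟨q', s', hqs, hnorm⟩ := exists_last_letter q hq1
      have hq'ne : q ≠ q' := by
        intro h
        rw [← h] at hnorm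
        omega
      have hq' : (foxE K t (MonoidAlgebra.single q' (1 : K))).coeff q = 0 := by
        by_contra h
        rcases foxE_support' t q' _ h with h' | h'
        · omega
        · exact hq'ne h'
      have hs' : s' ≠ (t.1, !t.2) := by
        intro h
        have h2 : q * FreeGroup.mk [t] = q' := by
          rw [hqs, h, mul_assoc, mk_letter_cancel, mul_one]
        rw [h2] at hq
        omega
      conv_lhs => rw [hqs]
      rw [foxE_letter_coeff, ← hqs, hq', coeff_single_of_ne hq'ne, if_neg hs']
      simp
  constructor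
  · rw [foxE_letter_coeff, hq0, coeff_single_of_ne hne, if_neg htt]
    simp
  · rw [foxE_letter_coeff, hqq, if_pos rfl, if_neg htt, MonoidAlgebra.coeff_single,
      Finsupp.single_eq_same]
    simp

/-- (C): for `w₀ = q * t` with `q` shorter, the letter operator of `t` at any other element `w`
no longer than `w₀` has coefficient `0` at `q`. -/
theorem foxE_other (t : X × Bool) (q : FreeGroup X)
    (hq : q.norm + 1 = (q * FreeGroup.mk [t]).norm) (n : ℕ) :
    ∀ w : FreeGroup X, w.norm ≤ n → w.norm ≤ (q * FreeGroup.mk [t]).norm →
      w ≠ q * FreeGroup.mk [t] → (foxE K t (MonoidAlgebra.single w (1 : K))).coeff q = 0 := by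
  induction n with
  | zero =>
    intro w hw _ _
    have hw1 : w = 1 := FreeGroup.norm_eq_zero.mp (Nat.le_zero.mp hw)
    rw [hw1, foxE_one]
    rfl
  | succ n ih =>
    intro w hw hw0 hne
    by_cases hw1 : w = 1
    · rw [hw1, foxE_one]
      rfl
    · obtain ⟨w', s, hws, hnorm⟩ := exists_last_letter w hw1
      have h1 : (foxE K t (MonoidAlgebra.single w' (1 : K))).coeff q = 0 := by
        apply ih w' (by omega) (by omega)
        intro h
        rw [h] at hnorm
        omega
      have h2 : (if s = t then (MonoidAlgebra.single w' (1 : K)).coeff q else 0) = 0 := by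
        split_ifs with hst
        · apply coeff_single_of_ne
          intro hqw
          apply hne
          rw [hws, hst, hqw]
        · rfl
      have h3 : (if s = (t.1, !t.2) then
          (MonoidAlgebra.single (w' * FreeGroup.mk [s]) (1 : K)).coeff q else 0) = 0 := by
        split_ifs with hst
        · apply coeff_single_of_ne
          intro hqw
          have h4 : q * FreeGroup.mk [t] = w' := by
            rw [hqw, hst, mul_assoc, mk_letter_cancel, mul_one]
          rw [h4, hqw, ← hws] at hq
          omega
        · rfl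
      rw [hws, foxE_letter_coeff, h1, h2, h3]
      simp


/-- The letter operator, coefficientwise, as a sum over the support. -/
theorem foxE_coeff (t : X × Bool) (u : MonoidAlgebra K (FreeGroup X)) (g : FreeGroup X) :
    (foxE K t u).coeff g
      = ∑ w ∈ u.coeff.support,
          u.coeff w * (foxE K t (MonoidAlgebra.single w (1 : K))).coeff g := by
  have key : (foxE K t u).coeff g
      = u.coeff.sum (fun w c => c * (foxE K t (MonoidAlgebra.single w (1 : K))).coeff g) := by
    induction u using MonoidAlgebra.induction_linear with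
    | zero =>
      rw [map_zero, MonoidAlgebra.coeff_zero, Finsupp.sum_zero_index]
      rfl
    | add u v hu hv =>
      rw [map_add, MonoidAlgebra.coeff_add, Finsupp.add_apply, hu, hv, MonoidAlgebra.coeff_add,
        Finsupp.sum_add_index']
      · intro a
        rw [zero_mul]
      · intro a b₁ b₂
        rw [add_mul]
    | single w a =>
      rw [MonoidAlgebra.coeff_single, Finsupp.sum_single_index (by rw [zero_mul]),
        single_eq_smul, map_smul, MonoidAlgebra.coeff_smul, Finsupp.smul_apply, smul_eq_mul]
  rw [key]
  rfl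

theorem augSpan_lift_eq_zero (N : Type*) [Group N] (u : MonoidAlgebra K N)
    (hu : u ∈ augSpan K N) : MonoidAlgebra.lift K K N (1 : N →* K) u = 0 := by
  induction hu using Submodule.span_induction with
  | mem b hb =>
    obtain ⟨n, rfl⟩ := hb
    show MonoidAlgebra.lift K K N (1 : N →* K) (MonoidAlgebra.single n (1 : K) - 1) = 0
    rw [map_sub (MonoidAlgebra.lift K K N (1 : N →* K)),
      map_one (MonoidAlgebra.lift K K N (1 : N →* K)), MonoidAlgebra.lift_single,
      MonoidHom.one_apply, one_smul, sub_self]
  | zero => exact map_zero (MonoidAlgebra.lift K K N (1 : N →* K))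
  | add a b _ _ ha hb =>
    rw [map_add (MonoidAlgebra.lift K K N (1 : N →* K)), ha, hb, add_zero]
  | smul c a _ ha =>
    rw [map_smul (MonoidAlgebra.lift K K N (1 : N →* K)), ha, smul_zero]

/-- The core induction: an element of all powers of the augmentation ideal of the group algebra
of a free group, whose support has word length at most `L` with at most `n` elements of length
exactly `L`, is zero. -/
theorem magnus_aux (L : ℕ) : ∀ (n : ℕ) (u : MonoidAlgebra K (FreeGroup X)),
    (∀ k : ℕ, u ∈ augSpan K (FreeGroup X) ^ (k + 1)) →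
    (∀ g, u.coeff g ≠ 0 → g.norm ≤ L) →
    (u.coeff.support.filter (fun g => g.norm = L)).card ≤ n → u = 0 := by
  induction L with
  | zero =>
    intro n u hu hL _
    have h1 : u = MonoidAlgebra.single 1 (u.coeff 1) := by
      apply MonoidAlgebra.coeff_injective
      ext g
      by_cases hg : g = 1
      · rw [hg, MonoidAlgebra.coeff_single, Finsupp.single_eq_same]
      · rw [MonoidAlgebra.coeff_single, Finsupp.single_apply, if_neg (Ne.symm hg)]
        by_contra h
        exact hg (FreeGroup.norm_eq_zero.mp (Nat.le_zero.mp (hL g h)))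
    have h2 := augSpan_lift_eq_zero (FreeGroup X) u (by simpa using hu 0)
    rw [h1, MonoidAlgebra.lift_single, MonoidHom.one_apply, smul_eq_mul, mul_one] at h2
    rw [h1, h2, MonoidAlgebra.single_zero]
  | succ L ihL =>
    intro n
    induction n with
    | zero =>
      intro u hu hL hcard
      apply ihL (u.coeff.support.filter (fun g => g.norm = L)).card u hu _ le_rfl
      intro g hg
      have h1 := hL g hg
      have h2 : g ∉ u.coeff.support.filter (fun g => g.norm = L + 1) := by
        rw [Finset.card_eq_zero.mp (Nat.le_zero.mp hcard)]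
        exact Finset.notMem_empty g
      have h3 : g.norm ≠ L + 1 := fun h =>
        h2 (Finset.mem_filter.mpr ⟨Finsupp.mem_support_iff.mpr hg, h⟩)
      omega
    | succ n ihn =>
      intro u hu hL hcard
      by_cases hex : ∃ w₀, u.coeff w₀ ≠ 0 ∧ w₀.norm = L + 1
      · obtain ⟨w₀, hw₀, hw₀n⟩ := hex
        have hw₀1 : w₀ ≠ 1 := by
          intro h
          rw [h, FreeGroup.norm_one] at hw₀n
          omega
        obtain ⟨q, t, rfl, hqn⟩ := exists_last_letter w₀ hw₀1
        have hv0 : foxE K t u = 0 := by
          apply ihn (foxE K t u) (foxE_mem t u hu)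
          · intro g hg
            rw [foxE_coeff] at hg
            obtain ⟨w, hw, hwne⟩ := Finset.exists_ne_zero_of_sum_ne_zero hg
            have hw1 : u.coeff w ≠ 0 := Finsupp.mem_support_iff.mp hw
            have hw2 : (foxE K t (MonoidAlgebra.single w (1 : K))).coeff g ≠ 0 :=
              right_ne_zero_of_mul hwne
            have hw3 := hL w hw1
            rcases foxE_support' t w g hw2 with h | h
            · omega
            · rw [h]
              exact hw3
          · have hsub : (foxE K t u).coeff.support.filter (fun g => g.norm = L + 1)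
                ⊆ (u.coeff.support.filter (fun g => g.norm = L + 1)).erase
                  (q * FreeGroup.mk [t]) := by
              intro g hg
              rw [Finset.mem_filter, Finsupp.mem_support_iff] at hg
              obtain ⟨hg1, hg2⟩ := hg
              rw [foxE_coeff] at hg1
              obtain ⟨w, hw, hwne⟩ := Finset.exists_ne_zero_of_sum_ne_zero hg1
              have hw1 : u.coeff w ≠ 0 := Finsupp.mem_support_iff.mp hw
              have hw2 : (foxE K t (MonoidAlgebra.single w (1 : K))).coeff g ≠ 0 :=
                right_ne_zero_of_mul hwne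
              have hw3 := hL w hw1
              have hgw : g = w := by
                rcases foxE_support' t w g hw2 with h | h
                · omega
                · exact h
              rw [Finset.mem_erase, Finset.mem_filter]
              refine ⟨?_, by rw [hgw]; exact hw, hg2⟩
              intro hgw0
              rw [← hgw, hgw0] at hw2
              exact hw2 (foxE_last t q hqn).1
            have hmem : q * FreeGroup.mk [t]
                ∈ u.coeff.support.filter (fun g => g.norm = L + 1) :=
              Finset.mem_filter.mpr ⟨Finsupp.mem_support_iff.mpr hw₀, hw₀n⟩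
            have hle := Finset.card_le_card hsub
            rw [Finset.card_erase_of_mem hmem] at hle
            omega
        have hcq : (foxE K t u).coeff q = u.coeff (q * FreeGroup.mk [t]) := by
          rw [foxE_coeff, Finset.sum_eq_single (q * FreeGroup.mk [t])]
          · rw [(foxE_last t q hqn).2, mul_one]
          · intro w hw hne
            have hw1 : u.coeff w ≠ 0 := Finsupp.mem_support_iff.mp hw
            rw [foxE_other t q hqn w.norm w le_rfl (by rw [hw₀n]; exact hL w hw1) hne, mul_zero]
          · intro h
            exact absurd (Finsupp.mem_support_iff.mpr hw₀) h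
        rw [hv0] at hcq
        exact absurd hcq.symm hw₀
      · apply ihL (u.coeff.support.filter (fun g => g.norm = L)).card u hu _ le_rfl
        intro g hg
        have h1 := hL g hg
        have h3 : g.norm ≠ L + 1 := fun h => hex ⟨g, hg, h⟩
        omega

end Fox

/-- The augmentation ideal of the group algebra of a free group over a field is residually
nilpotent (Magnus, Fox). -/
theorem magnus (K : Type*) [Field K] (X : Type*) :
    ⨅ k : ℕ, augSpan K (FreeGroup X) ^ (k + 1) = ⊥ := by
  classical
  rw [eq_bot_iff]
  intro u hu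
  rw [Submodule.mem_iInf] at hu
  rw [Submodule.mem_bot]
  exact magnus_aux (u.coeff.support.sup FreeGroup.norm) _ u hu
    (fun g hg => Finset.le_sup (f := FreeGroup.norm) (Finsupp.mem_support_iff.mpr hg)) le_rfl

/-- Fully residually free groups have residually nilpotent augmentation ideals. -/
theorem resnilp_of_fully_residually_free.{u, v} (K : Type u) [Field K] (N : Type v) [Group N]
    (hN : ∀ S : Finset N, ∃ (X : Type v) (φ : N →* FreeGroup X), Set.InjOn φ (S : Set N)) :
    ⨅ k : ℕ, augSpan K N ^ (k + 1) = ⊥ := by
  rw [eq_bot_iff]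
  intro u hu
  rw [Submodule.mem_iInf] at hu
  rw [Submodule.mem_bot]
  obtain ⟨X, φ, hφ⟩ := hN u.coeff.support
  have h2 : Submodule.map (MonoidAlgebra.mapDomainAlgHom K K φ).toLinearMap (augSpan K N)
      ≤ augSpan K (FreeGroup X) := by
    rw [augSpan, Submodule.map_span, Submodule.span_le]
    rintro _ ⟨_, ⟨n, rfl⟩, rfl⟩
    apply Submodule.subset_span
    refine ⟨φ n, ?_⟩
    show MonoidAlgebra.single (φ n) (1 : K) - 1
      = MonoidAlgebra.mapDomainAlgHom K K φ (MonoidAlgebra.single n (1 : K) - 1)
    rw [map_sub, map_one, MonoidAlgebra.mapDomainAlgHom_apply, MonoidAlgebra.mapDomain_single]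
  have h1 : ∀ k : ℕ, MonoidAlgebra.mapDomainAlgHom K K φ u
      ∈ augSpan K (FreeGroup X) ^ (k + 1) := by
    intro k
    have h3 : (MonoidAlgebra.mapDomainAlgHom K K φ).toLinearMap u
        ∈ Submodule.map (MonoidAlgebra.mapDomainAlgHom K K φ).toLinearMap
          (augSpan K N ^ (k + 1)) := Submodule.mem_map_of_mem (hu k)
    rw [Submodule.map_pow] at h3
    exact pow_le_pow_left' h2 (k + 1) h3
  have h4 : MonoidAlgebra.mapDomainAlgHom K K φ u = 0 := by
    have h5 := magnus K X
    rw [eq_bot_iff] at h5
    exact (Submodule.mem_bot K).mp (h5 ((Submodule.mem_iInf _).mpr h1))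
  have h6 : Finsupp.mapDomain φ u.coeff = Finsupp.mapDomain φ 0 := by
    rw [Finsupp.mapDomain_zero]
    exact congrArg MonoidAlgebra.coeff h4
  apply MonoidAlgebra.coeff_injective
  exact Finsupp.mapDomain_injOn (u.coeff.support : Set N) hφ (Set.Subset.refl _)
    (by simp) h6

/-- Direct finiteness passes from `K[Q]` to `K[G]`, and likewise for all matrix rings, along a
homomorphism `f : G → Q` whose kernel is fully residually free. -/
theorem df_of_fully_residually_free_kernel.{u, v, w} {K : Type u} [Field K] {G : Type v}
    {Q : Type w} [Group G] [Group Q] (f : G →* Q)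
    (hker : ∀ S : Finset f.ker, ∃ (X : Type v) (φ : f.ker →* FreeGroup X),
      Set.InjOn φ (S : Set f.ker)) :
    ((∀ a b : MonoidAlgebra K Q, a * b = 1 → b * a = 1) →
      ∀ a b : MonoidAlgebra K G, a * b = 1 → b * a = 1) ∧
    (∀ n : ℕ, (∀ A B : Matrix (Fin n) (Fin n) (MonoidAlgebra K Q), A * B = 1 → B * A = 1) →
      ∀ A B : Matrix (Fin n) (Fin n) (MonoidAlgebra K G), A * B = 1 → B * A = 1) :=
  df_of_resnilp_kernel f (resnilp_of_fully_residually_free K f.ker hker)

end Vale.Agent.Lib.P194.H11
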